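import Crest.Agent.X262.Ends.Pl
import Crest.Agent.X262.Vb37.Univ

/-!
# Row 262, road B, ENDS (helper6): bounds for the moduli and for the rank

* `hev_pf`, `hev_mul`, `hev_sum` : values of forms at vectors;
* `essFT_cfl`, `trdeg_le`, `dim_cfl` : the field of moduli;
* `finrank_KS_le`, `KS_le_nsec` : the rank;
* `rbStmt : Ends.RbStmt`.
-/

set_option autoImplicit false
set_option linter.unusedSectionVars false

noncomputable section

namespace Crest.Agent.X262.Rb6

open Crest.Agent.X277 Crest.Agent.X277.BD Polynomial Matrix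
open Crest.Agent.X262.Vb Crest.Agent.X262.Vb37 Crest.Agent.X262.Ends Crest.Agent.X262.Tree87
open Crest.Agent.X262.Bub96 (hv Tr)
open Crest.Agent.X262.Bub96.Tr (dot)

variable {J : Type} [Fintype J] [DecidableEq J] {io : J → Type} [∀ j, Fintype (io j)]
  [∀ j, DecidableEq (io j)] {A : Type} [Fintype A]
  {K E L : Type} [Field K] [Algebra ℂ K] [Field E] [Algebra ℂ E] [Field L] [Algebra ℂ L]
  {d κ : J → ℕ} {f g : (j : J) → io j → E[X]} {q : MvPolynomial (Vr io) ℂ}

theorem pv_scl (h : MH q κ) {c : J → E} (hc : ∀ j, c j ≠ 0) (y : Pnt io E) :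
    pv (fun j i => c j * y j i) q = (∏ j, c j ^ κ j) * pv y q := by
  simpa using (MZ.of_MH h).pv_scl hc y

theorem pf_spec (h : MH q κ) (hg : ∀ j i, (g j i).natDegree ≤ d j) :
    (pf g q).natDegree ≤ dot κ d ∧ ∀ t, hv (dot κ d) (pf g q) t = pv (pt d g t) q := by
  have h1 := (MZ.of_MH h).sb hg
  rw [show (∑ j, (κ j : ℤ) * d j) = (dot κ d : ℕ) by simp only [dot]; push_cast; rfl] at h1
  exact ⟨DL_nat.1 h1.1, fun t => (ev_eq_hv _ _ _).symm.trans (h1.2 t)⟩

theorem hev_pf (h : MH q κ) (hg : ∀ j i, (g j i).natDegree ≤ d j) {w : Fin 2 → E} (hw : w ≠ 0) :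
    hev (dot κ d) (pf g q) w = pv (fun j i => hev (d j) (g j i) w) q := by
  obtain ⟨u, t, hu, rfl⟩ := exists_hx hw
  simp only [hev_smul, hev_hx (hg _ _), hev_hx (pf_spec h hg).1, (pf_spec h hg).2,
    pv_scl h fun j => pow_ne_zero (d j) hu]
  simp only [dot, ← pow_mul, Finset.prod_pow_eq_pow_sum, mul_comm (d _)]
  rfl

theorem hev_mul {m n : ℕ} {a b : E[X]} (ha : a.natDegree ≤ m) (hb : b.natDegree ≤ n)
    {w : Fin 2 → E} (hw : w ≠ 0) : hev (m + n) (a * b) w = hev m a w * hev n b w := by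
  obtain ⟨u, t, hu, rfl⟩ := exists_hx hw
  rw [hev_smul, hev_smul, hev_smul, hev_hx ha, hev_hx hb,
    hev_hx (natDegree_mul_le.trans (add_le_add ha hb)), ← ev_eq_hv, Nat.cast_add,
    ev_mul (DL_nat.2 ha) (DL_nat.2 hb), ev_eq_hv, ev_eq_hv, pow_add, mul_mul_mul_comm]

theorem hev_sum {ι : Type} (s : Finset ι) (n : ℕ) (a : ι → E[X]) (w : Fin 2 → E) :
    hev n (∑ i ∈ s, a i) w = ∑ i ∈ s, hev n (a i) w := by
  simp only [hev, finsetSum_coeff, Finset.sum_mul]
  exact Finset.sum_comm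

theorem pf_map (β : K →ₐ[ℂ] E) (f : (j : J) → io j → K[X]) (q : MvPolynomial (Vr io) ℂ) :
    pf (fun j i => (f j i).map (β : K →+* E)) q = (pf f q).map (β : K →+* E) :=
  (MvPolynomial.comp_aeval_apply (fun v : Vr io => f v.1 v.2) (mapAlgHom β) q).symm

variable {μ : Matrix (Fin 2) (Fin 2) E} {c : J → E}

theorem mulVec_ne (hμ : μ.det ≠ 0) {w : Fin 2 → E} (hw : w ≠ 0) : μ *ᵥ w ≠ 0 :=
  fun h => hw (Matrix.eq_zero_of_mulVec_eq_zero hμ h)

theorem pf_mob (hf : ∀ j i, (f j i).natDegree ≤ d j) (hμ : μ.det ≠ 0) (hc : ∀ j, c j ≠ 0)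
    (h : MH q κ) : pf (fun j i => C (c j) * mob (d j) μ (f j i)) q =
      C (∏ j, c j ^ κ j) * mob (dot κ d) μ (pf f q) := by
  have := inf_of_alg E
  refine Polynomial.funext fun t => ?_
  rw [eval_mul, eval_C, eval_mob, hev_pf h hf (mulVec_ne hμ (hx_ne _)), ← pv_scl h hc]
  refine ((pf_spec (g := fun j i => C (c j) * mob (d j) μ (f j i)) h fun j i =>
    (natDegree_C_mul_le _ _).trans (natDegree_mob _ _ _)).2 (some t)).trans (congrArg (pv · q) ?_)
  funext j i
  rw [pt, hv_C_mul, hv_mob]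

/-! ### moduli -/

theorem essFT_cfl (hg : ∀ j i, (g j i).natDegree ≤ d j) : Algebra.EssFiniteType ℂ (cfl g) := by
  refine IntermediateField.essFiniteType_iff.2 (IntermediateField.fg_adjoin_of_finite
    (((Set.finite_range fun x : Σ j, io j × io j × Fin (d j + 1) × Fin (d j + 1) =>
      (g x.1 x.2.1).coeff x.2.2.2.1 / (g x.1 x.2.2.1).coeff x.2.2.2.2).insert 0).subset ?_))
  rintro _ ⟨j, i, i', l, l', rfl⟩
  rcases lt_or_ge (d j) l with h | h
  · exact Or.inl (by rw [coeff_eq_zero_of_natDegree_lt ((hg j i).trans_lt h), zero_div])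
  rcases lt_or_ge (d j) l' with h' | h'
  · exact Or.inl (by rw [coeff_eq_zero_of_natDegree_lt ((hg j i').trans_lt h'), div_zero])
  exact Or.inr ⟨⟨j, i, i', ⟨l, by omega⟩, ⟨l', by omega⟩⟩, rfl⟩

open scoped IntermediateField.algebraAdjoinAdjoin in
theorem trdeg_le (β : K →ₐ[ℂ] E) {ι : Type} (t : ι → E) {F : IntermediateField ℂ E}
    (h : F ≤ IntermediateField.adjoin ℂ (Set.range β ∪ Set.range t)) :
    Algebra.trdeg ℂ F ≤ Algebra.trdeg ℂ K + Cardinal.mk ι := by
  let := β.toRingHom.toAlgebra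
  have : IsScalarTower ℂ K E := IsScalarTower.of_algebraMap_eq fun c => (β.commutes c).symm
  let E' := IntermediateField.adjoin K (Set.range t)
  have h1 : F ≤ E'.restrictScalars ℂ := h.trans (IntermediateField.adjoin_le_iff.2 (by
    rintro _ (⟨x, rfl⟩ | hx)
    exacts [E'.algebraMap_mem x, IntermediateField.subset_adjoin K _ hx]))
  have h2 : Algebra.trdeg ℂ F ≤ Algebra.trdeg ℂ E' :=
    trdeg_le_of_injective (IntermediateField.inclusion h1) (IntermediateField.inclusion_injective h1)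
  have : FaithfulSMul K (Algebra.adjoin K (Set.range t)) :=
    (faithfulSMul_iff_algebraMap_injective _ _).2 (algebraMap K _).injective
  rw [← trdeg_add_eq ℂ K (A := E'), ← trdeg_add_eq K (Algebra.adjoin K (Set.range t)) (A := E'),
    trdeg_eq_zero (R := Algebra.adjoin K _), add_zero, Algebra.adjoin_range_eq_range_aeval] at h2
  refine h2.trans (add_le_add_right ((trdeg_le_of_surjective _
    (MvPolynomial.aeval t).rangeRestrict_surjective).trans ?_) _)
  simp

theorem dim_cfl [Algebra.EssFiniteType ℂ K] {f : (j : J) → io j → K[X]} (hf : Cp d f)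
    (β : K →ₐ[ℂ] E) (hμ : μ.det ≠ 0) (hc : ∀ j, c j ≠ 0)
    (hg : ∀ j i, g j i = C (c j) * mob (d j) μ ((f j i).map (β : K →+* E))) :
    dim ℂ (cfl g) ≤ dim ℂ K + 3 := by
  obtain rfl : g = _ := _root_.funext fun j => _root_.funext (hg j)
  have h1 := hf.map (β : K →+* E)
  let ξ : Dat io d (Fin 3) E := ⟨_, ![none, some 0, some 1], cp_mob h1 hμ hc⟩
  choose u x _ hu using fun p => exists_hx (mulVec_ne hμ (hx_ne (ξ.x p)))
  let η : Dat io d (Fin 3) E := ⟨_, x, h1⟩
  have h2 := crd_le_of_eqv (eqv_symm (ξ := η) (η := ξ)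
    ⟨μ, c, hμ, hc, fun _ _ => rfl, fun p => ⟨u p, hu p⟩⟩) (a := 0) (b := 1) (c := 2) ⟨rfl, rfl, rfl⟩
  have := essFT_cfl ξ.cp.1
  have h3 := trdeg_le β (fun p => (x p).getD 0) (F := cfl ξ.f)
    ((IntermediateField.adjoin.mono _ _ _ fun _ h => Or.inl h).trans (h2.trans
      (IntermediateField.adjoin_le_iff.2 (by
        rintro _ (⟨j, i, i', l, l', rfl⟩ | ⟨p, hp⟩)
        · exact IntermediateField.subset_adjoin _ _ (Or.inl ⟨(f j i).coeff l / (f j i').coeff l', by
            simp [η]⟩)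
        · exact IntermediateField.subset_adjoin _ _ (Or.inr ⟨p, by
            simp only [show x p = _ from hp, Option.getD_some]⟩)))))
  rw [trdeg_eq_dim, trdeg_eq_dim, Cardinal.mk_fin] at h3
  exact_mod_cast h3

/-! ### the rank -/

variable {T : Tgt io A} {S : Syz T}

theorem coeff_pol (u : Cx T d → E) (x : Cx T d) : (pol u x.1).coeff x.2 = u x := by
  rw [pol, finsetSum_coeff, Finset.sum_eq_single x.2 (fun l _ h => by
    rw [coeff_monomial, if_neg fun h1 => h (Fin.ext h1)]) (by simp), coeff_monomial, if_pos rfl]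

theorem natDegree_pol (u : Cx T d → E) (a : A) : (pol u a).natDegree ≤ dot (T.k a) d :=
  natDegree_sum_le_of_forall_le _ _ fun l _ =>
    (natDegree_monomial_le _).trans (Nat.le_of_lt_succ l.2)

theorem pol_map (α : E →+* L) (u : Cx T d → E) (a : A) :
    pol (fun x => α (u x)) a = (pol u a).map α := by simp [pol, Polynomial.map_sum]

theorem mapS_KS_le (α : E →ₐ[ℂ] L) : mapS α (KS S d g) ≤ KS S d (mpf (α : E →+* L) g) := by
  refine Submodule.span_le.2 ?_
  rintro _ ⟨u, hu, rfl⟩ b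
  have h := congrArg (Polynomial.map (α : E →+* L)) (hu b)
  simp only [Polynomial.map_sum, Polynomial.map_mul, Polynomial.map_zero, ← pf_map, ← pol_map] at h
  exact h

theorem finrank_KS_le (α : E →ₐ[ℂ] L) :
    Module.finrank E (KS S d g) ≤ Module.finrank L (KS S d (mpf (α : E →+* L) g)) :=
  (finrank_mapS α _).ge.trans (Submodule.finrank_mono (mapS_KS_le α))

theorem finite_nsec : Module.Finite E (nsec T d f) := by
  refine Module.Finite.of_injective (N := Cx T d → E)
    (LinearMap.pi (fun x => lcoeff E x.2 ∘ₗ LinearMap.proj x.1) ∘ₗ (nsec T d f).subtype)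
    ((injective_iff_map_eq_zero _).2 fun σ h => Subtype.ext (funext fun a => Polynomial.ext fun l => ?_))
  rcases lt_or_ge (dot (T.k a) d) l with h1 | h1
  · exact (mem_Sec.1 σ.2).1 a l (Nat.cast_lt.2 h1)
  · exact congrFun h ⟨a, l, by omega⟩

theorem KS_le_nsec [IsAlgClosed E] {r : ℕ} (hS : GoodS S r d) (hf : Cp d f)
    (on : ∀ a, pf f (T.F a) = 0) (hμ : μ.det ≠ 0) (hc : ∀ j, c j ≠ 0) :
    Module.finrank E (KS S d fun j i => C (c j) * mob (d j) μ (f j i)) ≤
      Module.finrank E (nsec T d f) := by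
  have := inf_of_alg E
  have := finite_nsec (T := T) (d := d) (f := f)
  have h1 : μ⁻¹.det ≠ 0 := by rw [det_nonsing_inv, Ring.inverse_eq_inv']; exact inv_ne_zero hμ
  have h2 : ∀ κ : J → ℕ, ∏ j, c j ^ κ j ≠ 0 := fun κ =>
    Finset.prod_ne_zero_iff.2 fun j _ => pow_ne_zero _ (hc j)
  let φ : (Cx T d → E) →ₗ[E] A → E[X] :=
    { toFun := fun u a => C (∏ j, c j ^ T.k a j)⁻¹ * mob (dot (T.k a) d) μ⁻¹ (pol u a)
      map_add' := fun u u' => funext fun a => by
        rw [Pi.add_apply, ← mul_add, ← mob_add]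
        simp [pol, Finset.sum_add_distrib]
      map_smul' := fun s u => funext fun a => by
        rw [Pi.smul_apply, RingHom.id_apply, smul_eq_C_mul, mul_left_comm, ← mob_C_mul _ _ s]
        simp [pol, Finset.mul_sum, C_mul_monomial] }
  refine LinearMap.finrank_le_finrank_of_injective (f := φ.restrict fun u hu => ?_)
    ((injective_iff_map_eq_zero _).2 fun u h => Subtype.ext (funext fun x => ?_))
  · refine mem_Sec.2 ⟨fun a => DL_nat.2 ((natDegree_C_mul_le _ _).trans (natDegree_mob _ _ _)),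
      fun p => (hS E (Tr.leaf d f) ⟨hf.1, cp_hv hf⟩ rfl (fun x a => ?_) ((), p)).2 _ fun b => ?_⟩
    · refine ((pf_spec (T.hom a) hf.1).2 x.2).symm.trans ?_
      rw [on, ← ev_eq_hv, map_zero]
    · have h3 := mulVec_ne h1 (hx_ne p)
      have h4 := congrArg (hev (dot (S.e b) d) · (μ⁻¹ *ᵥ hx p)) (hu b)
      simp only [hev_sum] at h4
      refine mul_left_cancel₀ (h2 (S.e b)) ?_
      rw [mul_zero, Finset.mul_sum]
      refine (Finset.sum_congr rfl fun a _ => ?_).trans (h4.trans (by simp [hev]))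
      rcases S.hom b a with h5 | ⟨κ, h5, h6⟩
      · simp [h5, pv, pf, hev]
      · have h7 : evv (fun a => (dot (T.k a) d : ℤ)) p (φ u) a =
            (∏ j, c j ^ T.k a j)⁻¹ * hev _ (pol u a) (μ⁻¹ *ᵥ hx p) :=
          (ev_eq_hv _ _ _).trans (by rw [← hv_mob, ← hv_C_mul]; rfl)
        rw [h7, ← h5, show dot (κ + T.k a) d = dot κ d + dot (T.k a) d by
          simp [dot, add_mul, Finset.sum_add_distrib], pf_mob hf.1 hμ hc h6,
          hev_mul ((natDegree_C_mul_le _ _).trans (natDegree_mob _ _ _)) (natDegree_pol u a) h3,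
          hev_C_mul, hev_mob, mulVec_mulVec, mul_nonsing_inv _ hμ.isUnit, one_mulVec,
          hev_hx (pf_spec h6 hf.1).1, (pf_spec h6 hf.1).2]
        simp only [Pi.add_apply, pow_add, Finset.prod_mul_distrib]
        rw [mul_mul_mul_comm, mul_inv_cancel_left₀ (h2 _)]
        rfl
  · have h4 : C (∏ j, c j ^ T.k x.1 j)⁻¹ * mob (dot (T.k x.1) d) μ⁻¹ (pol u.1 x.1) = 0 :=
      congrFun (congrArg Subtype.val h) x.1
    have h3 := congrArg (mob (dot (T.k x.1) d) μ)
      ((mul_eq_zero.1 h4).resolve_left (C_ne_zero.2 (inv_ne_zero (h2 _))))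
    rw [mob_mob, nonsing_inv_mul _ hμ.isUnit, mob_one (natDegree_pol _ _)] at h3
    rw [← coeff_pol u.1, h3]
    simp [mob]

/-- **RB** -/
theorem rbStmt : RbStmt := by
  intro J _ _ io _ _ A _ T r d ν j₁ K _ _ _ f S hS hL hR E _ _ g ⟨β, μ, c, hμ, hc, hg⟩
  have h1 := dim_cfl hL.cp β hμ hc hg
  obtain rfl : g = _ := _root_.funext fun j => _root_.funext (hg j)
  have h2 := hL.cp.map (β : K →+* E)
  refine ⟨cp_mob h2 hμ hc, fun a => ?_, hL.dm ▸ h1, ?_⟩
  · rw [pf_mob h2.1 hμ hc (T.hom a), pf_map, hL.on]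
    simp [mob]
  · let α := IsScalarTower.toAlgHom ℂ E (AlgebraicClosure E)
    refine le_trans ?_ (hR _ (α.comp β))
    have h3 := KS_le_nsec hS (hL.cp.map (α.comp β : K →+* _))
      (fun a => by rw [pf_map, hL.on, Polynomial.map_zero])
      (μ := μ.map (α : E →+* _)) (c := fun j => α (c j))
      (by rw [← RingHom.mapMatrix_apply, ← RingHom.map_det]; exact (_root_.map_ne_zero _).2 hμ)
      fun j => (_root_.map_ne_zero _).2 (hc j)
    refine Nat.add_le_add_right (Nat.add_le_add_right ((finrank_KS_le α).trans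
      (le_of_eq_of_le (congrArg (fun g => Module.finrank _ (KS S d g)) ?_) h3)) _) _
    funext j i
    rw [mpf, Polynomial.map_mul, map_C, mob_map, Polynomial.map_map]
    rfl

end Crest.Agent.X262.Rb6
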